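import Mathlib

/-! Barycentric coordinates with respect to a regular simplex with edge length one. -/

namespace Vale.Agent.P052.R3.H205

theorem norm_sq {d : ℕ} (v : Fin (d + 1) → EuclideanSpace ℝ (Fin d))
    (hv : ∀ i j, i ≠ j → dist (v i) (v j) = 1) {w : Fin (d + 1) → ℝ} (hw : ∑ i, w i = 0) :
    ‖∑ i, w i • v i‖ ^ 2 = (∑ i, w i ^ 2) / 2 := by
  have h1 := EuclideanGeometry.inner_weightedVSub (s₁ := Finset.univ) (s₂ := Finset.univ)
    (w₁ := w) v hw (w₂ := w) v hw
  rw [Finset.weightedVSub_eq_linear_combination _ hw, real_inner_self_eq_norm_sq] at h1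
  rw [h1]
  have h2 : ∀ i, ∑ j, w i * w j * (dist (v i) (v j) * dist (v i) (v j)) = - w i ^ 2 := by
    intro i
    have h3 : ∀ j, w i * w j * (dist (v i) (v j) * dist (v i) (v j))
        = w i * w j - if i = j then w i * w j else 0 := by
      intro j
      by_cases hij : i = j
      · subst hij
        simp
      · rw [hv i j hij, if_neg hij]
        ring
    rw [Finset.sum_congr rfl fun j _ => h3 j, Finset.sum_sub_distrib, ← Finset.mul_sum, hw,
      Finset.sum_ite_eq, if_pos (Finset.mem_univ i)]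
    ring
  rw [Finset.sum_congr rfl fun i _ => h2 i, Finset.sum_neg_distrib]
  ring

theorem dist_sq {d : ℕ} (v : Fin (d + 1) → EuclideanSpace ℝ (Fin d))
    (hv : ∀ i j, i ≠ j → dist (v i) (v j) = 1) {t s : Fin (d + 1) → ℝ}
    (ht : ∑ i, t i = 1) (hs : ∑ i, s i = 1) :
    dist (∑ i, t i • v i) (∑ i, s i • v i) ^ 2 = (∑ i, (t i - s i) ^ 2) / 2 := by
  have h1 : ∑ i, (t i - s i) = 0 := by
    rw [Finset.sum_sub_distrib, ht, hs, sub_self]
  rw [← norm_sq v hv h1, dist_eq_norm, ← Finset.sum_sub_distrib]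
  simp only [sub_smul]

theorem bary {d : ℕ} (v : Fin (d + 1) → EuclideanSpace ℝ (Fin d))
    (hv : ∀ i j, i ≠ j → dist (v i) (v j) = 1) (x : EuclideanSpace ℝ (Fin d)) :
    ∃ t : Fin (d + 1) → ℝ, ∑ i, t i = 1 ∧ x = ∑ i, t i • v i := by
  classical
  have h1 : AffineIndependent ℝ v := by
    rw [affineIndependent_iff_of_fintype]
    intro w hw h2 i
    rw [Finset.weightedVSub_eq_linear_combination _ hw] at h2
    have h3 := norm_sq v hv hw
    rw [h2, norm_zero] at h3
    have h4 : ∑ i, w i ^ 2 = 0 := by linarith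
    have h5 := (Finset.sum_eq_zero_iff_of_nonneg fun i _ => sq_nonneg (w i)).1 h4 i
      (Finset.mem_univ i)
    exact pow_eq_zero_iff (two_ne_zero) |>.1 h5
  have h2 : affineSpan ℝ (Set.range v) = ⊤ := by
    rw [h1.affineSpan_eq_top_iff_card_eq_finrank_add_one]
    simp
  have h3 : x ∈ affineSpan ℝ (Set.range v) := by
    rw [h2]
    trivial
  obtain ⟨t, ht, hx⟩ := eq_affineCombination_of_mem_affineSpan_of_fintype h3
  refine ⟨t, ht, ?_⟩
  rw [hx, Finset.affineCombination_eq_linear_combination _ _ _ ht]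

end Vale.Agent.P052.R3.H205
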